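import Vale.Agent.P358T42.Main

namespace Vale.Agent.Results.P358.ATensorPower

open Vale.Agent.P358T42

/-- Let `Q` be a qubit, with orthonormal basis `e`.  The generalized amplitude-damping channel `A`,
the `n`-fold input space and the channel `A^{⊗ n}` exist and are determined by their defining
properties; the Holevo capacity is additive, and the classical capacity equals the Holevo
capacity, the maximum of an explicit function. -/
theorem result {Q : Type} [NormedAddCommGroup Q] [InnerProductSpace ℂ Q] [CompleteSpace Q]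
    (e : OrthonormalBasis (Fin 2) ℂ Q) (γ ν : ℝ) (hγ : γ ∈ Set.Icc (0 : ℝ) 1)
    (hν : ν ∈ Set.Icc (0 : ℝ) 1) :
    (∀ ρ : Op Q, IsState ρ → ∃ q z, mat e ρ = dm q z) ∧ (∃! A, IsGADC e γ ν A) ∧
    (∀ n : ℕ, ∃ (E : Type) (_ : NormedAddCommGroup E) (_ : InnerProductSpace ℂ E)
      (_ : CompleteSpace E) (t : Mul n Q E), IsPower t) ∧
    ∀ A, IsGADC e γ ν A → IsChannel A ∧ BddAbove (holevoSet A) ∧
      ∀ (E : ℕ → Type) [∀ n, NormedAddCommGroup (E n)] [∀ n, InnerProductSpace ℂ (E n)]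
        [∀ n, CompleteSpace (E n)] (t : ∀ n, Mul n Q (E n)), (∀ n, IsPower (t n)) →
        (∀ n, FiniteDimensional ℂ (E n) ∧ (∀ x, ∃! X, IsProd (t n) x X) ∧
          ∃! N, IsMapPower (t n) A N) ∧
        ∀ N : ∀ n, Op (E n) → Op (E n), (∀ n, IsMapPower (t n) A (N n)) →
          (∀ n, IsChannel (N n) ∧ BddAbove (holevoSet (N n)) ∧ chi (N n) = n * chi A) ∧
          ∃ C : ℝ, IsLUB {x | ∃ n : ℕ, 1 ≤ n ∧ x = chi (N n) / n} C ∧ C = chi A ∧
            IsGreatest ((fun q : ℝ => h₂ ((1 - γ) * q + γ * ν) -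
              h₂ ((1 + √((1 - 2 * ((1 - γ) * q + γ * ν)) ^ 2 + 4 * (1 - γ) * (q * (1 - q)))) / 2))
              '' Set.Icc 0 1) C :=
  main e γ ν hγ hν

end Vale.Agent.Results.P358.ATensorPower
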